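import Mathlib
import Vale.Agent.Lib.P302.helper8.Alt323.Base

/-!
# P302: pieces of the mask search of the 323-item instance (part 0)
-/

namespace Vale.Agent.Lib.P302.helper8.Alt323

open Vale.Agent.Lib.P302.helper14 Vale.Agent.Lib.P302.helper8

theorem ok_lay0 : stepOKP rows (prio.drop 0) cap lay0 lay1 = true := by decide +kernel

theorem ok_lay1 : stepOKP rows (prio.drop 1) cap lay1 lay2 = true := by decide +kernel

theorem ok_lay2 : stepOKP rows (prio.drop 2) cap lay2 lay3 = true := by decide +kernel

theorem ok_lay3 : stepOKP rows (prio.drop 3) cap lay3 lay4 = true := by decide +kernel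

theorem ok_p4_0 : stepOKP rows (prio.drop 4) cap p4_0 lay5 = true := by decide +kernel

theorem ok_p4_1 : stepOKP rows (prio.drop 4) cap p4_1 lay5 = true := by decide +kernel

theorem ok_p4_2 : stepOKP rows (prio.drop 4) cap p4_2 lay5 = true := by decide +kernel

theorem ok_p5_0 : stepOKP rows (prio.drop 5) cap p5_0 lay6 = true := by decide +kernel

theorem ok_p5_1 : stepOKP rows (prio.drop 5) cap p5_1 lay6 = true := by decide +kernel

theorem ok_p5_2 : stepOKP rows (prio.drop 5) cap p5_2 lay6 = true := by decide +kernel

theorem ok_p5_3 : stepOKP rows (prio.drop 5) cap p5_3 lay6 = true := by decide +kernel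

theorem ok_p5_4 : stepOKP rows (prio.drop 5) cap p5_4 lay6 = true := by decide +kernel

theorem ok_p5_5 : stepOKP rows (prio.drop 5) cap p5_5 lay6 = true := by decide +kernel

theorem ok_p6_0 : stepOKP rows (prio.drop 6) cap p6_0 lay7 = true := by decide +kernel

theorem ok_p6_1 : stepOKP rows (prio.drop 6) cap p6_1 lay7 = true := by decide +kernel

theorem ok_p6_2 : stepOKP rows (prio.drop 6) cap p6_2 lay7 = true := by decide +kernel

theorem ok_p6_3 : stepOKP rows (prio.drop 6) cap p6_3 lay7 = true := by decide +kernel

theorem ok_p6_4 : stepOKP rows (prio.drop 6) cap p6_4 lay7 = true := by decide +kernel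

theorem ok_p6_5 : stepOKP rows (prio.drop 6) cap p6_5 lay7 = true := by decide +kernel

theorem ok_p6_6 : stepOKP rows (prio.drop 6) cap p6_6 lay7 = true := by decide +kernel

theorem ok_p6_7 : stepOKP rows (prio.drop 6) cap p6_7 lay7 = true := by decide +kernel

theorem ok_p7_0 : stepOKP rows (prio.drop 7) cap p7_0 lay8 = true := by decide +kernel

theorem ok_p7_1 : stepOKP rows (prio.drop 7) cap p7_1 lay8 = true := by decide +kernel

theorem ok_p7_2 : stepOKP rows (prio.drop 7) cap p7_2 lay8 = true := by decide +kernel

theorem ok_p7_3 : stepOKP rows (prio.drop 7) cap p7_3 lay8 = true := by decide +kernel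

theorem ok_p7_4 : stepOKP rows (prio.drop 7) cap p7_4 lay8 = true := by decide +kernel

theorem ok_p7_5 : stepOKP rows (prio.drop 7) cap p7_5 lay8 = true := by decide +kernel

theorem ok_p7_6 : stepOKP rows (prio.drop 7) cap p7_6 lay8 = true := by decide +kernel

end Vale.Agent.Lib.P302.helper8.Alt323
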