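import Mathlib
import Vale.Agent.Lib.P302.helper8.Alt323.Base

/-!
# P302: pieces of the mask search of the 323-item instance (part 1)
-/

namespace Vale.Agent.Lib.P302.helper8.Alt323

open Vale.Agent.Lib.P302.helper14 Vale.Agent.Lib.P302.helper8

theorem ok_p7_7 : stepOKP rows (prio.drop 7) cap p7_7 lay8 = true := by decide +kernel

theorem ok_p7_8 : stepOKP rows (prio.drop 7) cap p7_8 lay8 = true := by decide +kernel

theorem ok_p7_9 : stepOKP rows (prio.drop 7) cap p7_9 lay8 = true := by decide +kernel

theorem ok_p7_10 : stepOKP rows (prio.drop 7) cap p7_10 lay8 = true := by decide +kernel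

theorem ok_p7_11 : stepOKP rows (prio.drop 7) cap p7_11 lay8 = true := by decide +kernel

theorem ok_p8_0 : stepOKP rows (prio.drop 8) cap p8_0 lay9 = true := by decide +kernel

theorem ok_p8_1 : stepOKP rows (prio.drop 8) cap p8_1 lay9 = true := by decide +kernel

theorem ok_p8_2 : stepOKP rows (prio.drop 8) cap p8_2 lay9 = true := by decide +kernel

theorem ok_p8_3 : stepOKP rows (prio.drop 8) cap p8_3 lay9 = true := by decide +kernel

theorem ok_p8_4 : stepOKP rows (prio.drop 8) cap p8_4 lay9 = true := by decide +kernel

theorem ok_p8_5 : stepOKP rows (prio.drop 8) cap p8_5 lay9 = true := by decide +kernel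

theorem ok_p8_6 : stepOKP rows (prio.drop 8) cap p8_6 lay9 = true := by decide +kernel

theorem ok_p8_7 : stepOKP rows (prio.drop 8) cap p8_7 lay9 = true := by decide +kernel

theorem ok_p8_8 : stepOKP rows (prio.drop 8) cap p8_8 lay9 = true := by decide +kernel

theorem ok_p8_9 : stepOKP rows (prio.drop 8) cap p8_9 lay9 = true := by decide +kernel

theorem ok_p8_10 : stepOKP rows (prio.drop 8) cap p8_10 lay9 = true := by decide +kernel

theorem ok_p8_11 : stepOKP rows (prio.drop 8) cap p8_11 lay9 = true := by decide +kernel

theorem ok_p8_12 : stepOKP rows (prio.drop 8) cap p8_12 lay9 = true := by decide +kernel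

theorem ok_p9_0 : stepOKP rows (prio.drop 11) cap p9_0 lay10 = true := by decide +kernel

theorem ok_p9_1 : stepOKP rows (prio.drop 11) cap p9_1 lay10 = true := by decide +kernel

theorem ok_p9_2 : stepOKP rows (prio.drop 11) cap p9_2 lay10 = true := by decide +kernel

theorem ok_p9_3 : stepOKP rows (prio.drop 11) cap p9_3 lay10 = true := by decide +kernel

theorem ok_p9_4 : stepOKP rows (prio.drop 11) cap p9_4 lay10 = true := by decide +kernel

theorem ok_p9_5 : stepOKP rows (prio.drop 11) cap p9_5 lay10 = true := by decide +kernel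

theorem ok_p9_6 : stepOKP rows (prio.drop 11) cap p9_6 lay10 = true := by decide +kernel

end Vale.Agent.Lib.P302.helper8.Alt323
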