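import Mathlib
import Vale.Agent.Lib.P302.helper8.Alt323.Base

/-!
# P302: pieces of the mask search of the 323-item instance (part 2)
-/

namespace Vale.Agent.Lib.P302.helper8.Alt323

open Vale.Agent.Lib.P302.helper14 Vale.Agent.Lib.P302.helper8

theorem ok_p9_7 : stepOKP rows (prio.drop 11) cap p9_7 lay10 = true := by decide +kernel

theorem ok_p9_8 : stepOKP rows (prio.drop 11) cap p9_8 lay10 = true := by decide +kernel

theorem ok_p9_9 : stepOKP rows (prio.drop 11) cap p9_9 lay10 = true := by decide +kernel

theorem ok_p9_10 : stepOKP rows (prio.drop 11) cap p9_10 lay10 = true := by decide +kernel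

theorem ok_p9_11 : stepOKP rows (prio.drop 11) cap p9_11 lay10 = true := by decide +kernel

theorem ok_p9_12 : stepOKP rows (prio.drop 11) cap p9_12 lay10 = true := by decide +kernel

theorem ok_p10_0 : stepOKP rows (prio.drop 12) cap p10_0 lay11 = true := by decide +kernel

theorem ok_p10_1 : stepOKP rows (prio.drop 12) cap p10_1 lay11 = true := by decide +kernel

theorem ok_p10_2 : stepOKP rows (prio.drop 12) cap p10_2 lay11 = true := by decide +kernel

theorem ok_p10_3 : stepOKP rows (prio.drop 12) cap p10_3 lay11 = true := by decide +kernel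

theorem ok_p10_4 : stepOKP rows (prio.drop 12) cap p10_4 lay11 = true := by decide +kernel

theorem ok_p10_5 : stepOKP rows (prio.drop 12) cap p10_5 lay11 = true := by decide +kernel

theorem ok_p10_6 : stepOKP rows (prio.drop 12) cap p10_6 lay11 = true := by decide +kernel

theorem ok_p10_7 : stepOKP rows (prio.drop 12) cap p10_7 lay11 = true := by decide +kernel

theorem ok_p10_8 : stepOKP rows (prio.drop 12) cap p10_8 lay11 = true := by decide +kernel

theorem ok_p10_9 : stepOKP rows (prio.drop 12) cap p10_9 lay11 = true := by decide +kernel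

theorem ok_p10_10 : stepOKP rows (prio.drop 12) cap p10_10 lay11 = true := by decide +kernel

theorem ok_p10_11 : stepOKP rows (prio.drop 12) cap p10_11 lay11 = true := by decide +kernel

theorem ok_p10_12 : stepOKP rows (prio.drop 12) cap p10_12 lay11 = true := by decide +kernel

theorem ok_p11_0 : stepOKP rows (prio.drop 13) cap p11_0 lay12 = true := by decide +kernel

theorem ok_p11_1 : stepOKP rows (prio.drop 13) cap p11_1 lay12 = true := by decide +kernel

theorem ok_p11_2 : stepOKP rows (prio.drop 13) cap p11_2 lay12 = true := by decide +kernel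

theorem ok_p11_3 : stepOKP rows (prio.drop 13) cap p11_3 lay12 = true := by decide +kernel

theorem ok_p11_4 : stepOKP rows (prio.drop 13) cap p11_4 lay12 = true := by decide +kernel

theorem ok_p11_5 : stepOKP rows (prio.drop 13) cap p11_5 lay12 = true := by decide +kernel

theorem ok_p11_6 : stepOKP rows (prio.drop 13) cap p11_6 lay12 = true := by decide +kernel

end Vale.Agent.Lib.P302.helper8.Alt323
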