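import Mathlib
import Vale.Agent.Lib.P302.helper8.Alt323.Base
import Vale.Agent.Lib.P302.helper8.Alt323.K0

/-!
# P302: pieces of the mask search of the 323-item instance (part 3)
-/

namespace Vale.Agent.Lib.P302.helper8.Alt323

open Vale.Agent.Lib.P302.helper14 Vale.Agent.Lib.P302.helper8

theorem ok_p11_7 : stepOKP rows (prio.drop 13) cap p11_7 lay12 = true := by decide +kernel

theorem ok_p11_8 : stepOKP rows (prio.drop 13) cap p11_8 lay12 = true := by decide +kernel

theorem ok_p11_9 : stepOKP rows (prio.drop 13) cap p11_9 lay12 = true := by decide +kernel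

theorem ok_p11_10 : stepOKP rows (prio.drop 13) cap p11_10 lay12 = true := by decide +kernel

theorem ok_p11_11 : stepOKP rows (prio.drop 13) cap p11_11 lay12 = true := by decide +kernel

theorem ok_p11_12 : stepOKP rows (prio.drop 13) cap p11_12 lay12 = true := by decide +kernel

theorem ok_p12_0 : stepOKP rows (prio.drop 15) cap p12_0 lay13 = true := by decide +kernel

theorem ok_p12_1 : stepOKP rows (prio.drop 15) cap p12_1 lay13 = true := by decide +kernel

theorem ok_p12_2 : stepOKP rows (prio.drop 15) cap p12_2 lay13 = true := by decide +kernel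

theorem ok_p12_3 : stepOKP rows (prio.drop 15) cap p12_3 lay13 = true := by decide +kernel

theorem ok_p12_4 : stepOKP rows (prio.drop 15) cap p12_4 lay13 = true := by decide +kernel

theorem ok_p12_5 : stepOKP rows (prio.drop 15) cap p12_5 lay13 = true := by decide +kernel

theorem ok_p12_6 : stepOKP rows (prio.drop 15) cap p12_6 lay13 = true := by decide +kernel

theorem ok_p12_7 : stepOKP rows (prio.drop 15) cap p12_7 lay13 = true := by decide +kernel

theorem ok_p12_8 : stepOKP rows (prio.drop 15) cap p12_8 lay13 = true := by decide +kernel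

theorem ok_p12_9 : stepOKP rows (prio.drop 15) cap p12_9 lay13 = true := by decide +kernel

theorem ok_p12_10 : stepOKP rows (prio.drop 15) cap p12_10 lay13 = true := by decide +kernel

theorem ok_p12_11 : stepOKP rows (prio.drop 15) cap p12_11 lay13 = true := by decide +kernel

theorem ok_p13_0 : stepOKP rows (prio.drop 16) cap p13_0 lay14 = true := by decide +kernel

theorem ok_p13_1 : stepOKP rows (prio.drop 16) cap p13_1 lay14 = true := by decide +kernel

theorem ok_p13_2 : stepOKP rows (prio.drop 16) cap p13_2 lay14 = true := by decide +kernel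

theorem ok_p13_3 : stepOKP rows (prio.drop 16) cap p13_3 lay14 = true := by decide +kernel

theorem ok_p13_4 : stepOKP rows (prio.drop 16) cap p13_4 lay14 = true := by decide +kernel

theorem ok_p13_5 : stepOKP rows (prio.drop 16) cap p13_5 lay14 = true := by decide +kernel

theorem ok_p13_6 : stepOKP rows (prio.drop 16) cap p13_6 lay14 = true := by decide +kernel

theorem ok_p14_0 : stepOKP rows (prio.drop 19) cap p14_0 lay15 = true := by decide +kernel

end Vale.Agent.Lib.P302.helper8.Alt323
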