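import Mathlib
import Vale.Agent.Lib.P302.helper8.Alt323.Base
import Vale.Agent.Lib.P302.helper8.Alt323.K1

/-!
# P302: pieces of the mask search of the 323-item instance (part 4)
-/

namespace Vale.Agent.Lib.P302.helper8.Alt323

open Vale.Agent.Lib.P302.helper14 Vale.Agent.Lib.P302.helper8

theorem ok_p14_1 : stepOKP rows (prio.drop 19) cap p14_1 lay15 = true := by decide +kernel

theorem ok_p14_2 : stepOKP rows (prio.drop 19) cap p14_2 lay15 = true := by decide +kernel

theorem ok_p14_3 : stepOKP rows (prio.drop 19) cap p14_3 lay15 = true := by decide +kernel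

theorem ok_p14_4 : stepOKP rows (prio.drop 19) cap p14_4 lay15 = true := by decide +kernel

theorem ok_p15_0 : stepOKP rows (prio.drop 21) cap p15_0 lay16 = true := by decide +kernel

theorem ok_p15_1 : stepOKP rows (prio.drop 21) cap p15_1 lay16 = true := by decide +kernel

theorem ok_p15_2 : stepOKP rows (prio.drop 21) cap p15_2 lay16 = true := by decide +kernel

theorem ok_p15_3 : stepOKP rows (prio.drop 21) cap p15_3 lay16 = true := by decide +kernel

theorem ok_p15_4 : stepOKP rows (prio.drop 21) cap p15_4 lay16 = true := by decide +kernel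

theorem ok_p16_0 : stepOKP rows (prio.drop 26) cap p16_0 lay17 = true := by decide +kernel

theorem ok_p16_1 : stepOKP rows (prio.drop 26) cap p16_1 lay17 = true := by decide +kernel

theorem ok_p16_2 : stepOKP rows (prio.drop 26) cap p16_2 lay17 = true := by decide +kernel

theorem ok_p16_3 : stepOKP rows (prio.drop 26) cap p16_3 lay17 = true := by decide +kernel

theorem ok_p17_0 : stepOKP rows (prio.drop 27) cap p17_0 lay18 = true := by decide +kernel

theorem ok_p17_1 : stepOKP rows (prio.drop 27) cap p17_1 lay18 = true := by decide +kernel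

theorem ok_p17_2 : stepOKP rows (prio.drop 27) cap p17_2 lay18 = true := by decide +kernel

theorem ok_p17_3 : stepOKP rows (prio.drop 27) cap p17_3 lay18 = true := by decide +kernel

theorem ok_p18_0 : stepOKP rows (prio.drop 28) cap p18_0 lay19 = true := by decide +kernel

theorem ok_p18_1 : stepOKP rows (prio.drop 28) cap p18_1 lay19 = true := by decide +kernel

theorem ok_p18_2 : stepOKP rows (prio.drop 28) cap p18_2 lay19 = true := by decide +kernel

theorem ok_p18_3 : stepOKP rows (prio.drop 28) cap p18_3 lay19 = true := by decide +kernel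

theorem ok_p19_0 : stepOKP rows (prio.drop 31) cap p19_0 lay20 = true := by decide +kernel

theorem ok_p19_1 : stepOKP rows (prio.drop 31) cap p19_1 lay20 = true := by decide +kernel

theorem ok_p19_2 : stepOKP rows (prio.drop 31) cap p19_2 lay20 = true := by decide +kernel

theorem ok_p19_3 : stepOKP rows (prio.drop 31) cap p19_3 lay20 = true := by decide +kernel

theorem ok_p20_0 : stepOKP rows (prio.drop 35) cap p20_0 lay21 = true := by decide +kernel

theorem ok_p20_1 : stepOKP rows (prio.drop 35) cap p20_1 lay21 = true := by decide +kernel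

end Vale.Agent.Lib.P302.helper8.Alt323
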