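import Mathlib
import Vale.Agent.Lib.P302.helper8.Alt323.Base
import Vale.Agent.Lib.P302.helper8.Alt323.K2

/-!
# P302: pieces of the mask search of the 323-item instance (part 5)
-/

namespace Vale.Agent.Lib.P302.helper8.Alt323

open Vale.Agent.Lib.P302.helper14 Vale.Agent.Lib.P302.helper8

theorem ok_p21_0 : stepOKP rows (prio.drop 42) cap p21_0 lay22 = true := by decide +kernel

theorem ok_p21_1 : stepOKP rows (prio.drop 42) cap p21_1 lay22 = true := by decide +kernel

theorem ok_p22_0 : stepOKP rows (prio.drop 45) cap p22_0 lay23 = true := by decide +kernel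

theorem ok_p22_1 : stepOKP rows (prio.drop 45) cap p22_1 lay23 = true := by decide +kernel

theorem ok_p23_0 : stepOKP rows (prio.drop 46) cap p23_0 lay24 = true := by decide +kernel

theorem ok_p23_1 : stepOKP rows (prio.drop 46) cap p23_1 lay24 = true := by decide +kernel

theorem ok_p24_0 : stepOKP rows (prio.drop 49) cap p24_0 lay25 = true := by decide +kernel

theorem ok_p24_1 : stepOKP rows (prio.drop 49) cap p24_1 lay25 = true := by decide +kernel

theorem ok_p25_0 : stepOKP rows (prio.drop 51) cap p25_0 lay26 = true := by decide +kernel

theorem ok_p25_1 : stepOKP rows (prio.drop 51) cap p25_1 lay26 = true := by decide +kernel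

theorem ok_p26_0 : stepOKP rows (prio.drop 53) cap p26_0 lay27 = true := by decide +kernel

theorem ok_p26_1 : stepOKP rows (prio.drop 53) cap p26_1 lay27 = true := by decide +kernel

theorem ok_p27_0 : stepOKP rows (prio.drop 54) cap p27_0 lay28 = true := by decide +kernel

theorem ok_p27_1 : stepOKP rows (prio.drop 54) cap p27_1 lay28 = true := by decide +kernel

theorem ok_lay28 : stepOKP rows (prio.drop 55) cap lay28 lay29 = true := by decide +kernel

theorem ok_lay29 : stepOKP rows (prio.drop 59) cap lay29 lay30 = true := by decide +kernel

theorem ok_p30_0 : stepOKP rows (prio.drop 60) cap p30_0 lay31 = true := by decide +kernel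

theorem ok_p30_1 : stepOKP rows (prio.drop 60) cap p30_1 lay31 = true := by decide +kernel

theorem ok_p31_0 : stepOKP rows (prio.drop 62) cap p31_0 lay32 = true := by decide +kernel

theorem ok_p31_1 : stepOKP rows (prio.drop 62) cap p31_1 lay32 = true := by decide +kernel

theorem ok_p32_0 : stepOKP rows (prio.drop 63) cap p32_0 lay33 = true := by decide +kernel

theorem ok_p32_1 : stepOKP rows (prio.drop 63) cap p32_1 lay33 = true := by decide +kernel

theorem ok_p33_0 : stepOKP rows (prio.drop 66) cap p33_0 lay34 = true := by decide +kernel

theorem ok_p33_1 : stepOKP rows (prio.drop 66) cap p33_1 lay34 = true := by decide +kernel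

theorem ok_p34_0 : stepOKP rows (prio.drop 68) cap p34_0 lay35 = true := by decide +kernel

theorem ok_p34_1 : stepOKP rows (prio.drop 68) cap p34_1 lay35 = true := by decide +kernel

theorem ok_p35_0 : stepOKP rows (prio.drop 71) cap p35_0 lay36 = true := by decide +kernel

theorem ok_p35_1 : stepOKP rows (prio.drop 71) cap p35_1 lay36 = true := by decide +kernel

theorem ok_p36_0 : stepOKP rows (prio.drop 72) cap p36_0 lay37 = true := by decide +kernel

theorem ok_p36_1 : stepOKP rows (prio.drop 72) cap p36_1 lay37 = true := by decide +kernel

theorem ok_p37_0 : stepOKP rows (prio.drop 73) cap p37_0 lay38 = true := by decide +kernel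

theorem ok_p37_1 : stepOKP rows (prio.drop 73) cap p37_1 lay38 = true := by decide +kernel

theorem ok_lay38 : stepOKP rows (prio.drop 74) cap lay38 lay39 = true := by decide +kernel

theorem ok_lay39 : stepOKP rows (prio.drop 75) cap lay39 lay40 = true := by decide +kernel

theorem ok_lay40 : stepOKP rows (prio.drop 80) cap lay40 lay41 = true := by decide +kernel

end Vale.Agent.Lib.P302.helper8.Alt323
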