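import Mathlib
import Vale.Agent.Lib.P302.helper8.Alt323.Base
import Vale.Agent.Lib.P302.helper8.Alt323.K3

/-!
# P302: pieces of the mask search of the 323-item instance (part 6)
-/

namespace Vale.Agent.Lib.P302.helper8.Alt323

open Vale.Agent.Lib.P302.helper14 Vale.Agent.Lib.P302.helper8

theorem ok_lay41 : stepOKP rows (prio.drop 81) cap lay41 lay42 = true := by decide +kernel

theorem ok_lay42 : stepOKP rows (prio.drop 83) cap lay42 lay43 = true := by decide +kernel

theorem ok_lay43 : stepOKP rows (prio.drop 84) cap lay43 lay44 = true := by decide +kernel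

theorem ok_lay44 : stepOKP rows (prio.drop 88) cap lay44 lay45 = true := by decide +kernel

theorem ok_lay45 : stepOKP rows (prio.drop 95) cap lay45 lay46 = true := by decide +kernel

theorem ok_lay46 : stepOKP rows (prio.drop 96) cap lay46 lay47 = true := by decide +kernel

theorem ok_lay47 : stepOKP rows (prio.drop 97) cap lay47 lay48 = true := by decide +kernel

theorem ok_lay48 : stepOKP rows (prio.drop 98) cap lay48 lay49 = true := by decide +kernel

theorem ok_p49_0 : stepOKP rows (prio.drop 100) cap p49_0 lay50 = true := by decide +kernel

theorem ok_p49_1 : stepOKP rows (prio.drop 100) cap p49_1 lay50 = true := by decide +kernel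

theorem ok_p50_0 : stepOKP rows (prio.drop 101) cap p50_0 lay51 = true := by decide +kernel

theorem ok_p50_1 : stepOKP rows (prio.drop 101) cap p50_1 lay51 = true := by decide +kernel

theorem ok_p51_0 : stepOKP rows (prio.drop 102) cap p51_0 lay52 = true := by decide +kernel

theorem ok_p51_1 : stepOKP rows (prio.drop 102) cap p51_1 lay52 = true := by decide +kernel

theorem ok_p51_2 : stepOKP rows (prio.drop 102) cap p51_2 lay52 = true := by decide +kernel

theorem ok_p52_0 : stepOKP rows (prio.drop 105) cap p52_0 lay53 = true := by decide +kernel

theorem ok_p52_1 : stepOKP rows (prio.drop 105) cap p52_1 lay53 = true := by decide +kernel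

theorem ok_p53_0 : stepOKP rows (prio.drop 106) cap p53_0 lay54 = true := by decide +kernel

theorem ok_p53_1 : stepOKP rows (prio.drop 106) cap p53_1 lay54 = true := by decide +kernel

theorem ok_p54_0 : stepOKP rows (prio.drop 107) cap p54_0 lay55 = true := by decide +kernel

theorem ok_p54_1 : stepOKP rows (prio.drop 107) cap p54_1 lay55 = true := by decide +kernel

theorem ok_p55_0 : stepOKP rows (prio.drop 109) cap p55_0 lay56 = true := by decide +kernel

theorem ok_p55_1 : stepOKP rows (prio.drop 109) cap p55_1 lay56 = true := by decide +kernel

theorem ok_p56_0 : stepOKP rows (prio.drop 112) cap p56_0 lay57 = true := by decide +kernel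

theorem ok_p56_1 : stepOKP rows (prio.drop 112) cap p56_1 lay57 = true := by decide +kernel

theorem ok_lay57 : stepOKP rows (prio.drop 121) cap lay57 lay58 = true := by decide +kernel

theorem ok_p58_0 : stepOKP rows (prio.drop 123) cap p58_0 lay59 = true := by decide +kernel

theorem ok_p58_1 : stepOKP rows (prio.drop 123) cap p58_1 lay59 = true := by decide +kernel

theorem ok_p59_0 : stepOKP rows (prio.drop 124) cap p59_0 lay60 = true := by decide +kernel

theorem ok_p59_1 : stepOKP rows (prio.drop 124) cap p59_1 lay60 = true := by decide +kernel

theorem ok_p60_0 : stepOKP rows (prio.drop 129) cap p60_0 lay61 = true := by decide +kernel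

theorem ok_p60_1 : stepOKP rows (prio.drop 129) cap p60_1 lay61 = true := by decide +kernel

theorem ok_p61_0 : stepOKP rows (prio.drop 131) cap p61_0 lay62 = true := by decide +kernel

theorem ok_p61_1 : stepOKP rows (prio.drop 131) cap p61_1 lay62 = true := by decide +kernel

end Vale.Agent.Lib.P302.helper8.Alt323
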