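import Mathlib
import Vale.Agent.Lib.P302.helper8.Alt323.Base
import Vale.Agent.Lib.P302.helper8.Alt323.K4

/-!
# P302: pieces of the mask search of the 323-item instance (part 7)
-/

namespace Vale.Agent.Lib.P302.helper8.Alt323

open Vale.Agent.Lib.P302.helper14 Vale.Agent.Lib.P302.helper8

theorem ok_p62_0 : stepOKP rows (prio.drop 134) cap p62_0 lay63 = true := by decide +kernel

theorem ok_p62_1 : stepOKP rows (prio.drop 134) cap p62_1 lay63 = true := by decide +kernel

theorem ok_p63_0 : stepOKP rows (prio.drop 135) cap p63_0 lay64 = true := by decide +kernel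

theorem ok_p63_1 : stepOKP rows (prio.drop 135) cap p63_1 lay64 = true := by decide +kernel

theorem ok_lay64 : stepOKP rows (prio.drop 136) cap lay64 lay65 = true := by decide +kernel

theorem ok_lay65 : stepOKP rows (prio.drop 137) cap lay65 lay66 = true := by decide +kernel

theorem ok_lay66 : stepOKP rows (prio.drop 142) cap lay66 lay67 = true := by decide +kernel

theorem ok_lay67 : stepOKP rows (prio.drop 143) cap lay67 lay68 = true := by decide +kernel

theorem ok_lay68 : stepOKP rows (prio.drop 145) cap lay68 lay69 = true := by decide +kernel

theorem ok_lay69 : stepOKP rows (prio.drop 146) cap lay69 lay70 = true := by decide +kernel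

theorem ok_lay70 : stepOKP rows (prio.drop 150) cap lay70 lay71 = true := by decide +kernel

theorem ok_lay71 : stepOKP rows (prio.drop 154) cap lay71 lay72 = true := by decide +kernel

theorem ok_lay72 : stepOKP rows (prio.drop 157) cap lay72 lay73 = true := by decide +kernel

theorem ok_lay73 : stepOKP rows (prio.drop 159) cap lay73 lay74 = true := by decide +kernel

theorem ok_lay74 : stepOKP rows (prio.drop 160) cap lay74 lay75 = true := by decide +kernel

theorem ok_lay75 : stepOKP rows (prio.drop 161) cap lay75 lay76 = true := by decide +kernel

theorem ok_p76_0 : stepOKP rows (prio.drop 163) cap p76_0 lay77 = true := by decide +kernel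

theorem ok_p76_1 : stepOKP rows (prio.drop 163) cap p76_1 lay77 = true := by decide +kernel

theorem ok_p77_0 : stepOKP rows (prio.drop 165) cap p77_0 lay78 = true := by decide +kernel

theorem ok_p77_1 : stepOKP rows (prio.drop 165) cap p77_1 lay78 = true := by decide +kernel

theorem ok_p78_0 : stepOKP rows (prio.drop 166) cap p78_0 lay79 = true := by decide +kernel

theorem ok_p78_1 : stepOKP rows (prio.drop 166) cap p78_1 lay79 = true := by decide +kernel

theorem ok_p78_2 : stepOKP rows (prio.drop 166) cap p78_2 lay79 = true := by decide +kernel

theorem ok_p79_0 : stepOKP rows (prio.drop 167) cap p79_0 lay80 = true := by decide +kernel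

theorem ok_p79_1 : stepOKP rows (prio.drop 167) cap p79_1 lay80 = true := by decide +kernel

theorem ok_p79_2 : stepOKP rows (prio.drop 167) cap p79_2 lay80 = true := by decide +kernel

theorem ok_p80_0 : stepOKP rows (prio.drop 180) cap p80_0 lay81 = true := by decide +kernel

theorem ok_p80_1 : stepOKP rows (prio.drop 180) cap p80_1 lay81 = true := by decide +kernel

theorem ok_p81_0 : stepOKP rows (prio.drop 181) cap p81_0 lay82 = true := by decide +kernel

theorem ok_p81_1 : stepOKP rows (prio.drop 181) cap p81_1 lay82 = true := by decide +kernel

theorem ok_p82_0 : stepOKP rows (prio.drop 182) cap p82_0 lay83 = true := by decide +kernel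

theorem ok_p82_1 : stepOKP rows (prio.drop 182) cap p82_1 lay83 = true := by decide +kernel

theorem ok_lay83 : stepOKP rows (prio.drop 188) cap lay83 lay84 = true := by decide +kernel

theorem ok_lay84 : stepOKP rows (prio.drop 197) cap lay84 lay85 = true := by decide +kernel

theorem ok_lay85 : stepOKP rows (prio.drop 198) cap lay85 lay86 = true := by decide +kernel

theorem ok_lay86 : stepOKP rows (prio.drop 200) cap lay86 lay87 = true := by decide +kernel

theorem ok_lay87 : stepOKP rows (prio.drop 205) cap lay87 lay88 = true := by decide +kernel

theorem ok_lay88 : stepOKP rows (prio.drop 207) cap lay88 lay89 = true := by decide +kernel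

end Vale.Agent.Lib.P302.helper8.Alt323
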