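import Mathlib
import Vale.Agent.Lib.P302.helper8.Alt323.Base
import Vale.Agent.Lib.P302.helper8.Alt323.K5

/-!
# P302: pieces of the mask search of the 323-item instance (part 8)
-/

namespace Vale.Agent.Lib.P302.helper8.Alt323

open Vale.Agent.Lib.P302.helper14 Vale.Agent.Lib.P302.helper8

theorem ok_lay89 : stepOKP rows (prio.drop 209) cap lay89 lay90 = true := by decide +kernel

theorem ok_lay90 : stepOKP rows (prio.drop 217) cap lay90 lay91 = true := by decide +kernel

theorem ok_lay91 : stepOKP rows (prio.drop 219) cap lay91 lay92 = true := by decide +kernel

theorem ok_lay92 : stepOKP rows (prio.drop 220) cap lay92 lay93 = true := by decide +kernel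

theorem ok_lay93 : stepOKP rows (prio.drop 222) cap lay93 lay94 = true := by decide +kernel

theorem ok_lay94 : stepOKP rows (prio.drop 223) cap lay94 lay95 = true := by decide +kernel

theorem ok_lay95 : stepOKP rows (prio.drop 227) cap lay95 lay96 = true := by decide +kernel

theorem ok_lay96 : stepOKP rows (prio.drop 239) cap lay96 lay97 = true := by decide +kernel

theorem ok_lay97 : stepOKP rows (prio.drop 247) cap lay97 lay98 = true := by decide +kernel

theorem ok_lay98 : stepOKP rows (prio.drop 249) cap lay98 lay99 = true := by decide +kernel

theorem ok_lay99 : stepOKP rows (prio.drop 253) cap lay99 lay100 = true := by decide +kernel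

theorem ok_lay100 : stepOKP rows (prio.drop 254) cap lay100 lay101 = true := by decide +kernel

theorem ok_lay101 : stepOKP rows (prio.drop 255) cap lay101 lay102 = true := by decide +kernel

theorem ok_lay102 : stepOKP rows (prio.drop 259) cap lay102 lay103 = true := by decide +kernel

theorem ok_lay103 : stepOKP rows (prio.drop 270) cap lay103 lay104 = true := by decide +kernel

theorem ok_lay104 : stepOKP rows (prio.drop 272) cap lay104 lay105 = true := by decide +kernel

end Vale.Agent.Lib.P302.helper8.Alt323
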