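import Mathlib
import Vale.Agent.Lib.P302.helper8.Alt323.K0
import Vale.Agent.Lib.P302.helper8.Alt323.K1
import Vale.Agent.Lib.P302.helper8.Alt323.K2
import Vale.Agent.Lib.P302.helper8.Alt323.K3
import Vale.Agent.Lib.P302.helper8.Alt323.K4
import Vale.Agent.Lib.P302.helper8.Alt323.K5
import Vale.Agent.Lib.P302.helper8.Alt323.K6
import Vale.Agent.Lib.P302.helper8.Alt323.K7
import Vale.Agent.Lib.P302.helper8.Alt323.K8

/-!
# P302: the mask search of the 323-item instance, put together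

No state of any layer can be split into triples of total size at most `cap`.
-/

namespace Vale.Agent.Lib.P302.helper8.Alt323

open Vale.Agent.Lib.P302.helper14 Vale.Agent.Lib.P302.helper8

theorem no105 : ∀ m ∈ lay105, ¬ TriPart cap (szs (sel rows m)) := nil_no rows cap

theorem no104 : ∀ m ∈ lay104, ¬ TriPart cap (szs (sel rows m)) :=
  stepOKP_sound rows_ok ok_lay104 no105

theorem no103 : ∀ m ∈ lay103, ¬ TriPart cap (szs (sel rows m)) :=
  stepOKP_sound rows_ok ok_lay103 no104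

theorem no102 : ∀ m ∈ lay102, ¬ TriPart cap (szs (sel rows m)) :=
  stepOKP_sound rows_ok ok_lay102 no103

theorem no101 : ∀ m ∈ lay101, ¬ TriPart cap (szs (sel rows m)) :=
  stepOKP_sound rows_ok ok_lay101 no102

theorem no100 : ∀ m ∈ lay100, ¬ TriPart cap (szs (sel rows m)) :=
  stepOKP_sound rows_ok ok_lay100 no101

theorem no99 : ∀ m ∈ lay99, ¬ TriPart cap (szs (sel rows m)) :=
  stepOKP_sound rows_ok ok_lay99 no100

theorem no98 : ∀ m ∈ lay98, ¬ TriPart cap (szs (sel rows m)) :=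
  stepOKP_sound rows_ok ok_lay98 no99

theorem no97 : ∀ m ∈ lay97, ¬ TriPart cap (szs (sel rows m)) :=
  stepOKP_sound rows_ok ok_lay97 no98

theorem no96 : ∀ m ∈ lay96, ¬ TriPart cap (szs (sel rows m)) :=
  stepOKP_sound rows_ok ok_lay96 no97

theorem no95 : ∀ m ∈ lay95, ¬ TriPart cap (szs (sel rows m)) :=
  stepOKP_sound rows_ok ok_lay95 no96

theorem no94 : ∀ m ∈ lay94, ¬ TriPart cap (szs (sel rows m)) :=
  stepOKP_sound rows_ok ok_lay94 no95

theorem no93 : ∀ m ∈ lay93, ¬ TriPart cap (szs (sel rows m)) :=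
  stepOKP_sound rows_ok ok_lay93 no94

theorem no92 : ∀ m ∈ lay92, ¬ TriPart cap (szs (sel rows m)) :=
  stepOKP_sound rows_ok ok_lay92 no93

theorem no91 : ∀ m ∈ lay91, ¬ TriPart cap (szs (sel rows m)) :=
  stepOKP_sound rows_ok ok_lay91 no92

theorem no90 : ∀ m ∈ lay90, ¬ TriPart cap (szs (sel rows m)) :=
  stepOKP_sound rows_ok ok_lay90 no91

theorem no89 : ∀ m ∈ lay89, ¬ TriPart cap (szs (sel rows m)) :=
  stepOKP_sound rows_ok ok_lay89 no90

theorem no88 : ∀ m ∈ lay88, ¬ TriPart cap (szs (sel rows m)) :=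
  stepOKP_sound rows_ok ok_lay88 no89

theorem no87 : ∀ m ∈ lay87, ¬ TriPart cap (szs (sel rows m)) :=
  stepOKP_sound rows_ok ok_lay87 no88

theorem no86 : ∀ m ∈ lay86, ¬ TriPart cap (szs (sel rows m)) :=
  stepOKP_sound rows_ok ok_lay86 no87

theorem no85 : ∀ m ∈ lay85, ¬ TriPart cap (szs (sel rows m)) :=
  stepOKP_sound rows_ok ok_lay85 no86

theorem no84 : ∀ m ∈ lay84, ¬ TriPart cap (szs (sel rows m)) :=
  stepOKP_sound rows_ok ok_lay84 no85

theorem no83 : ∀ m ∈ lay83, ¬ TriPart cap (szs (sel rows m)) :=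
  stepOKP_sound rows_ok ok_lay83 no84

theorem no82 : ∀ m ∈ lay82, ¬ TriPart cap (szs (sel rows m)) :=
  append_no (stepOKP_sound rows_ok ok_p82_0 no83)
    (stepOKP_sound rows_ok ok_p82_1 no83)

theorem no81 : ∀ m ∈ lay81, ¬ TriPart cap (szs (sel rows m)) :=
  append_no (stepOKP_sound rows_ok ok_p81_0 no82)
    (stepOKP_sound rows_ok ok_p81_1 no82)

theorem no80 : ∀ m ∈ lay80, ¬ TriPart cap (szs (sel rows m)) :=
  append_no (stepOKP_sound rows_ok ok_p80_0 no81)
    (stepOKP_sound rows_ok ok_p80_1 no81)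

theorem no79 : ∀ m ∈ lay79, ¬ TriPart cap (szs (sel rows m)) :=
  append_no (stepOKP_sound rows_ok ok_p79_0 no80)
    (append_no (stepOKP_sound rows_ok ok_p79_1 no80)
    (stepOKP_sound rows_ok ok_p79_2 no80))

theorem no78 : ∀ m ∈ lay78, ¬ TriPart cap (szs (sel rows m)) :=
  append_no (stepOKP_sound rows_ok ok_p78_0 no79)
    (append_no (stepOKP_sound rows_ok ok_p78_1 no79)
    (stepOKP_sound rows_ok ok_p78_2 no79))

theorem no77 : ∀ m ∈ lay77, ¬ TriPart cap (szs (sel rows m)) :=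
  append_no (stepOKP_sound rows_ok ok_p77_0 no78)
    (stepOKP_sound rows_ok ok_p77_1 no78)

theorem no76 : ∀ m ∈ lay76, ¬ TriPart cap (szs (sel rows m)) :=
  append_no (stepOKP_sound rows_ok ok_p76_0 no77)
    (stepOKP_sound rows_ok ok_p76_1 no77)

theorem no75 : ∀ m ∈ lay75, ¬ TriPart cap (szs (sel rows m)) :=
  stepOKP_sound rows_ok ok_lay75 no76

theorem no74 : ∀ m ∈ lay74, ¬ TriPart cap (szs (sel rows m)) :=
  stepOKP_sound rows_ok ok_lay74 no75

theorem no73 : ∀ m ∈ lay73, ¬ TriPart cap (szs (sel rows m)) :=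
  stepOKP_sound rows_ok ok_lay73 no74

theorem no72 : ∀ m ∈ lay72, ¬ TriPart cap (szs (sel rows m)) :=
  stepOKP_sound rows_ok ok_lay72 no73

theorem no71 : ∀ m ∈ lay71, ¬ TriPart cap (szs (sel rows m)) :=
  stepOKP_sound rows_ok ok_lay71 no72

theorem no70 : ∀ m ∈ lay70, ¬ TriPart cap (szs (sel rows m)) :=
  stepOKP_sound rows_ok ok_lay70 no71

theorem no69 : ∀ m ∈ lay69, ¬ TriPart cap (szs (sel rows m)) :=
  stepOKP_sound rows_ok ok_lay69 no70

theorem no68 : ∀ m ∈ lay68, ¬ TriPart cap (szs (sel rows m)) :=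
  stepOKP_sound rows_ok ok_lay68 no69

theorem no67 : ∀ m ∈ lay67, ¬ TriPart cap (szs (sel rows m)) :=
  stepOKP_sound rows_ok ok_lay67 no68

theorem no66 : ∀ m ∈ lay66, ¬ TriPart cap (szs (sel rows m)) :=
  stepOKP_sound rows_ok ok_lay66 no67

theorem no65 : ∀ m ∈ lay65, ¬ TriPart cap (szs (sel rows m)) :=
  stepOKP_sound rows_ok ok_lay65 no66

theorem no64 : ∀ m ∈ lay64, ¬ TriPart cap (szs (sel rows m)) :=
  stepOKP_sound rows_ok ok_lay64 no65

theorem no63 : ∀ m ∈ lay63, ¬ TriPart cap (szs (sel rows m)) :=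
  append_no (stepOKP_sound rows_ok ok_p63_0 no64)
    (stepOKP_sound rows_ok ok_p63_1 no64)

theorem no62 : ∀ m ∈ lay62, ¬ TriPart cap (szs (sel rows m)) :=
  append_no (stepOKP_sound rows_ok ok_p62_0 no63)
    (stepOKP_sound rows_ok ok_p62_1 no63)

theorem no61 : ∀ m ∈ lay61, ¬ TriPart cap (szs (sel rows m)) :=
  append_no (stepOKP_sound rows_ok ok_p61_0 no62)
    (stepOKP_sound rows_ok ok_p61_1 no62)

theorem no60 : ∀ m ∈ lay60, ¬ TriPart cap (szs (sel rows m)) :=
  append_no (stepOKP_sound rows_ok ok_p60_0 no61)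
    (stepOKP_sound rows_ok ok_p60_1 no61)

theorem no59 : ∀ m ∈ lay59, ¬ TriPart cap (szs (sel rows m)) :=
  append_no (stepOKP_sound rows_ok ok_p59_0 no60)
    (stepOKP_sound rows_ok ok_p59_1 no60)

theorem no58 : ∀ m ∈ lay58, ¬ TriPart cap (szs (sel rows m)) :=
  append_no (stepOKP_sound rows_ok ok_p58_0 no59)
    (stepOKP_sound rows_ok ok_p58_1 no59)

theorem no57 : ∀ m ∈ lay57, ¬ TriPart cap (szs (sel rows m)) :=
  stepOKP_sound rows_ok ok_lay57 no58

theorem no56 : ∀ m ∈ lay56, ¬ TriPart cap (szs (sel rows m)) :=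
  append_no (stepOKP_sound rows_ok ok_p56_0 no57)
    (stepOKP_sound rows_ok ok_p56_1 no57)

theorem no55 : ∀ m ∈ lay55, ¬ TriPart cap (szs (sel rows m)) :=
  append_no (stepOKP_sound rows_ok ok_p55_0 no56)
    (stepOKP_sound rows_ok ok_p55_1 no56)

theorem no54 : ∀ m ∈ lay54, ¬ TriPart cap (szs (sel rows m)) :=
  append_no (stepOKP_sound rows_ok ok_p54_0 no55)
    (stepOKP_sound rows_ok ok_p54_1 no55)

theorem no53 : ∀ m ∈ lay53, ¬ TriPart cap (szs (sel rows m)) :=
  append_no (stepOKP_sound rows_ok ok_p53_0 no54)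
    (stepOKP_sound rows_ok ok_p53_1 no54)

theorem no52 : ∀ m ∈ lay52, ¬ TriPart cap (szs (sel rows m)) :=
  append_no (stepOKP_sound rows_ok ok_p52_0 no53)
    (stepOKP_sound rows_ok ok_p52_1 no53)

theorem no51 : ∀ m ∈ lay51, ¬ TriPart cap (szs (sel rows m)) :=
  append_no (stepOKP_sound rows_ok ok_p51_0 no52)
    (append_no (stepOKP_sound rows_ok ok_p51_1 no52)
    (stepOKP_sound rows_ok ok_p51_2 no52))

theorem no50 : ∀ m ∈ lay50, ¬ TriPart cap (szs (sel rows m)) :=
  append_no (stepOKP_sound rows_ok ok_p50_0 no51)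
    (stepOKP_sound rows_ok ok_p50_1 no51)

theorem no49 : ∀ m ∈ lay49, ¬ TriPart cap (szs (sel rows m)) :=
  append_no (stepOKP_sound rows_ok ok_p49_0 no50)
    (stepOKP_sound rows_ok ok_p49_1 no50)

theorem no48 : ∀ m ∈ lay48, ¬ TriPart cap (szs (sel rows m)) :=
  stepOKP_sound rows_ok ok_lay48 no49

theorem no47 : ∀ m ∈ lay47, ¬ TriPart cap (szs (sel rows m)) :=
  stepOKP_sound rows_ok ok_lay47 no48

theorem no46 : ∀ m ∈ lay46, ¬ TriPart cap (szs (sel rows m)) :=
  stepOKP_sound rows_ok ok_lay46 no47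

theorem no45 : ∀ m ∈ lay45, ¬ TriPart cap (szs (sel rows m)) :=
  stepOKP_sound rows_ok ok_lay45 no46

theorem no44 : ∀ m ∈ lay44, ¬ TriPart cap (szs (sel rows m)) :=
  stepOKP_sound rows_ok ok_lay44 no45

theorem no43 : ∀ m ∈ lay43, ¬ TriPart cap (szs (sel rows m)) :=
  stepOKP_sound rows_ok ok_lay43 no44

theorem no42 : ∀ m ∈ lay42, ¬ TriPart cap (szs (sel rows m)) :=
  stepOKP_sound rows_ok ok_lay42 no43

theorem no41 : ∀ m ∈ lay41, ¬ TriPart cap (szs (sel rows m)) :=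
  stepOKP_sound rows_ok ok_lay41 no42

theorem no40 : ∀ m ∈ lay40, ¬ TriPart cap (szs (sel rows m)) :=
  stepOKP_sound rows_ok ok_lay40 no41

theorem no39 : ∀ m ∈ lay39, ¬ TriPart cap (szs (sel rows m)) :=
  stepOKP_sound rows_ok ok_lay39 no40

theorem no38 : ∀ m ∈ lay38, ¬ TriPart cap (szs (sel rows m)) :=
  stepOKP_sound rows_ok ok_lay38 no39

theorem no37 : ∀ m ∈ lay37, ¬ TriPart cap (szs (sel rows m)) :=
  append_no (stepOKP_sound rows_ok ok_p37_0 no38)
    (stepOKP_sound rows_ok ok_p37_1 no38)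

theorem no36 : ∀ m ∈ lay36, ¬ TriPart cap (szs (sel rows m)) :=
  append_no (stepOKP_sound rows_ok ok_p36_0 no37)
    (stepOKP_sound rows_ok ok_p36_1 no37)

theorem no35 : ∀ m ∈ lay35, ¬ TriPart cap (szs (sel rows m)) :=
  append_no (stepOKP_sound rows_ok ok_p35_0 no36)
    (stepOKP_sound rows_ok ok_p35_1 no36)

theorem no34 : ∀ m ∈ lay34, ¬ TriPart cap (szs (sel rows m)) :=
  append_no (stepOKP_sound rows_ok ok_p34_0 no35)
    (stepOKP_sound rows_ok ok_p34_1 no35)

theorem no33 : ∀ m ∈ lay33, ¬ TriPart cap (szs (sel rows m)) :=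
  append_no (stepOKP_sound rows_ok ok_p33_0 no34)
    (stepOKP_sound rows_ok ok_p33_1 no34)

theorem no32 : ∀ m ∈ lay32, ¬ TriPart cap (szs (sel rows m)) :=
  append_no (stepOKP_sound rows_ok ok_p32_0 no33)
    (stepOKP_sound rows_ok ok_p32_1 no33)

theorem no31 : ∀ m ∈ lay31, ¬ TriPart cap (szs (sel rows m)) :=
  append_no (stepOKP_sound rows_ok ok_p31_0 no32)
    (stepOKP_sound rows_ok ok_p31_1 no32)

theorem no30 : ∀ m ∈ lay30, ¬ TriPart cap (szs (sel rows m)) :=
  append_no (stepOKP_sound rows_ok ok_p30_0 no31)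
    (stepOKP_sound rows_ok ok_p30_1 no31)

theorem no29 : ∀ m ∈ lay29, ¬ TriPart cap (szs (sel rows m)) :=
  stepOKP_sound rows_ok ok_lay29 no30

theorem no28 : ∀ m ∈ lay28, ¬ TriPart cap (szs (sel rows m)) :=
  stepOKP_sound rows_ok ok_lay28 no29

theorem no27 : ∀ m ∈ lay27, ¬ TriPart cap (szs (sel rows m)) :=
  append_no (stepOKP_sound rows_ok ok_p27_0 no28)
    (stepOKP_sound rows_ok ok_p27_1 no28)

theorem no26 : ∀ m ∈ lay26, ¬ TriPart cap (szs (sel rows m)) :=
  append_no (stepOKP_sound rows_ok ok_p26_0 no27)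
    (stepOKP_sound rows_ok ok_p26_1 no27)

theorem no25 : ∀ m ∈ lay25, ¬ TriPart cap (szs (sel rows m)) :=
  append_no (stepOKP_sound rows_ok ok_p25_0 no26)
    (stepOKP_sound rows_ok ok_p25_1 no26)

theorem no24 : ∀ m ∈ lay24, ¬ TriPart cap (szs (sel rows m)) :=
  append_no (stepOKP_sound rows_ok ok_p24_0 no25)
    (stepOKP_sound rows_ok ok_p24_1 no25)

theorem no23 : ∀ m ∈ lay23, ¬ TriPart cap (szs (sel rows m)) :=
  append_no (stepOKP_sound rows_ok ok_p23_0 no24)
    (stepOKP_sound rows_ok ok_p23_1 no24)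

theorem no22 : ∀ m ∈ lay22, ¬ TriPart cap (szs (sel rows m)) :=
  append_no (stepOKP_sound rows_ok ok_p22_0 no23)
    (stepOKP_sound rows_ok ok_p22_1 no23)

theorem no21 : ∀ m ∈ lay21, ¬ TriPart cap (szs (sel rows m)) :=
  append_no (stepOKP_sound rows_ok ok_p21_0 no22)
    (stepOKP_sound rows_ok ok_p21_1 no22)

theorem no20 : ∀ m ∈ lay20, ¬ TriPart cap (szs (sel rows m)) :=
  append_no (stepOKP_sound rows_ok ok_p20_0 no21)
    (stepOKP_sound rows_ok ok_p20_1 no21)

theorem no19 : ∀ m ∈ lay19, ¬ TriPart cap (szs (sel rows m)) :=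
  append_no (stepOKP_sound rows_ok ok_p19_0 no20)
    (append_no (stepOKP_sound rows_ok ok_p19_1 no20)
    (append_no (stepOKP_sound rows_ok ok_p19_2 no20)
    (stepOKP_sound rows_ok ok_p19_3 no20)))

theorem no18 : ∀ m ∈ lay18, ¬ TriPart cap (szs (sel rows m)) :=
  append_no (stepOKP_sound rows_ok ok_p18_0 no19)
    (append_no (stepOKP_sound rows_ok ok_p18_1 no19)
    (append_no (stepOKP_sound rows_ok ok_p18_2 no19)
    (stepOKP_sound rows_ok ok_p18_3 no19)))

theorem no17 : ∀ m ∈ lay17, ¬ TriPart cap (szs (sel rows m)) :=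
  append_no (stepOKP_sound rows_ok ok_p17_0 no18)
    (append_no (stepOKP_sound rows_ok ok_p17_1 no18)
    (append_no (stepOKP_sound rows_ok ok_p17_2 no18)
    (stepOKP_sound rows_ok ok_p17_3 no18)))

theorem no16 : ∀ m ∈ lay16, ¬ TriPart cap (szs (sel rows m)) :=
  append_no (stepOKP_sound rows_ok ok_p16_0 no17)
    (append_no (stepOKP_sound rows_ok ok_p16_1 no17)
    (append_no (stepOKP_sound rows_ok ok_p16_2 no17)
    (stepOKP_sound rows_ok ok_p16_3 no17)))

theorem no15 : ∀ m ∈ lay15, ¬ TriPart cap (szs (sel rows m)) :=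
  append_no (stepOKP_sound rows_ok ok_p15_0 no16)
    (append_no (stepOKP_sound rows_ok ok_p15_1 no16)
    (append_no (stepOKP_sound rows_ok ok_p15_2 no16)
    (append_no (stepOKP_sound rows_ok ok_p15_3 no16)
    (stepOKP_sound rows_ok ok_p15_4 no16))))

theorem no14 : ∀ m ∈ lay14, ¬ TriPart cap (szs (sel rows m)) :=
  append_no (stepOKP_sound rows_ok ok_p14_0 no15)
    (append_no (stepOKP_sound rows_ok ok_p14_1 no15)
    (append_no (stepOKP_sound rows_ok ok_p14_2 no15)
    (append_no (stepOKP_sound rows_ok ok_p14_3 no15)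
    (stepOKP_sound rows_ok ok_p14_4 no15))))

theorem no13 : ∀ m ∈ lay13, ¬ TriPart cap (szs (sel rows m)) :=
  append_no (stepOKP_sound rows_ok ok_p13_0 no14)
    (append_no (stepOKP_sound rows_ok ok_p13_1 no14)
    (append_no (stepOKP_sound rows_ok ok_p13_2 no14)
    (append_no (stepOKP_sound rows_ok ok_p13_3 no14)
    (append_no (stepOKP_sound rows_ok ok_p13_4 no14)
    (append_no (stepOKP_sound rows_ok ok_p13_5 no14)
    (stepOKP_sound rows_ok ok_p13_6 no14))))))

theorem no12 : ∀ m ∈ lay12, ¬ TriPart cap (szs (sel rows m)) :=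
  append_no (stepOKP_sound rows_ok ok_p12_0 no13)
    (append_no (stepOKP_sound rows_ok ok_p12_1 no13)
    (append_no (stepOKP_sound rows_ok ok_p12_2 no13)
    (append_no (stepOKP_sound rows_ok ok_p12_3 no13)
    (append_no (stepOKP_sound rows_ok ok_p12_4 no13)
    (append_no (stepOKP_sound rows_ok ok_p12_5 no13)
    (append_no (stepOKP_sound rows_ok ok_p12_6 no13)
    (append_no (stepOKP_sound rows_ok ok_p12_7 no13)
    (append_no (stepOKP_sound rows_ok ok_p12_8 no13)
    (append_no (stepOKP_sound rows_ok ok_p12_9 no13)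
    (append_no (stepOKP_sound rows_ok ok_p12_10 no13)
    (stepOKP_sound rows_ok ok_p12_11 no13)))))))))))

theorem no11 : ∀ m ∈ lay11, ¬ TriPart cap (szs (sel rows m)) :=
  append_no (stepOKP_sound rows_ok ok_p11_0 no12)
    (append_no (stepOKP_sound rows_ok ok_p11_1 no12)
    (append_no (stepOKP_sound rows_ok ok_p11_2 no12)
    (append_no (stepOKP_sound rows_ok ok_p11_3 no12)
    (append_no (stepOKP_sound rows_ok ok_p11_4 no12)
    (append_no (stepOKP_sound rows_ok ok_p11_5 no12)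
    (append_no (stepOKP_sound rows_ok ok_p11_6 no12)
    (append_no (stepOKP_sound rows_ok ok_p11_7 no12)
    (append_no (stepOKP_sound rows_ok ok_p11_8 no12)
    (append_no (stepOKP_sound rows_ok ok_p11_9 no12)
    (append_no (stepOKP_sound rows_ok ok_p11_10 no12)
    (append_no (stepOKP_sound rows_ok ok_p11_11 no12)
    (stepOKP_sound rows_ok ok_p11_12 no12))))))))))))

theorem no10 : ∀ m ∈ lay10, ¬ TriPart cap (szs (sel rows m)) :=
  append_no (stepOKP_sound rows_ok ok_p10_0 no11)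
    (append_no (stepOKP_sound rows_ok ok_p10_1 no11)
    (append_no (stepOKP_sound rows_ok ok_p10_2 no11)
    (append_no (stepOKP_sound rows_ok ok_p10_3 no11)
    (append_no (stepOKP_sound rows_ok ok_p10_4 no11)
    (append_no (stepOKP_sound rows_ok ok_p10_5 no11)
    (append_no (stepOKP_sound rows_ok ok_p10_6 no11)
    (append_no (stepOKP_sound rows_ok ok_p10_7 no11)
    (append_no (stepOKP_sound rows_ok ok_p10_8 no11)
    (append_no (stepOKP_sound rows_ok ok_p10_9 no11)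
    (append_no (stepOKP_sound rows_ok ok_p10_10 no11)
    (append_no (stepOKP_sound rows_ok ok_p10_11 no11)
    (stepOKP_sound rows_ok ok_p10_12 no11))))))))))))

theorem no9 : ∀ m ∈ lay9, ¬ TriPart cap (szs (sel rows m)) :=
  append_no (stepOKP_sound rows_ok ok_p9_0 no10)
    (append_no (stepOKP_sound rows_ok ok_p9_1 no10)
    (append_no (stepOKP_sound rows_ok ok_p9_2 no10)
    (append_no (stepOKP_sound rows_ok ok_p9_3 no10)
    (append_no (stepOKP_sound rows_ok ok_p9_4 no10)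
    (append_no (stepOKP_sound rows_ok ok_p9_5 no10)
    (append_no (stepOKP_sound rows_ok ok_p9_6 no10)
    (append_no (stepOKP_sound rows_ok ok_p9_7 no10)
    (append_no (stepOKP_sound rows_ok ok_p9_8 no10)
    (append_no (stepOKP_sound rows_ok ok_p9_9 no10)
    (append_no (stepOKP_sound rows_ok ok_p9_10 no10)
    (append_no (stepOKP_sound rows_ok ok_p9_11 no10)
    (stepOKP_sound rows_ok ok_p9_12 no10))))))))))))

theorem no8 : ∀ m ∈ lay8, ¬ TriPart cap (szs (sel rows m)) :=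
  append_no (stepOKP_sound rows_ok ok_p8_0 no9)
    (append_no (stepOKP_sound rows_ok ok_p8_1 no9)
    (append_no (stepOKP_sound rows_ok ok_p8_2 no9)
    (append_no (stepOKP_sound rows_ok ok_p8_3 no9)
    (append_no (stepOKP_sound rows_ok ok_p8_4 no9)
    (append_no (stepOKP_sound rows_ok ok_p8_5 no9)
    (append_no (stepOKP_sound rows_ok ok_p8_6 no9)
    (append_no (stepOKP_sound rows_ok ok_p8_7 no9)
    (append_no (stepOKP_sound rows_ok ok_p8_8 no9)
    (append_no (stepOKP_sound rows_ok ok_p8_9 no9)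
    (append_no (stepOKP_sound rows_ok ok_p8_10 no9)
    (append_no (stepOKP_sound rows_ok ok_p8_11 no9)
    (stepOKP_sound rows_ok ok_p8_12 no9))))))))))))

theorem no7 : ∀ m ∈ lay7, ¬ TriPart cap (szs (sel rows m)) :=
  append_no (stepOKP_sound rows_ok ok_p7_0 no8)
    (append_no (stepOKP_sound rows_ok ok_p7_1 no8)
    (append_no (stepOKP_sound rows_ok ok_p7_2 no8)
    (append_no (stepOKP_sound rows_ok ok_p7_3 no8)
    (append_no (stepOKP_sound rows_ok ok_p7_4 no8)
    (append_no (stepOKP_sound rows_ok ok_p7_5 no8)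
    (append_no (stepOKP_sound rows_ok ok_p7_6 no8)
    (append_no (stepOKP_sound rows_ok ok_p7_7 no8)
    (append_no (stepOKP_sound rows_ok ok_p7_8 no8)
    (append_no (stepOKP_sound rows_ok ok_p7_9 no8)
    (append_no (stepOKP_sound rows_ok ok_p7_10 no8)
    (stepOKP_sound rows_ok ok_p7_11 no8)))))))))))

theorem no6 : ∀ m ∈ lay6, ¬ TriPart cap (szs (sel rows m)) :=
  append_no (stepOKP_sound rows_ok ok_p6_0 no7)
    (append_no (stepOKP_sound rows_ok ok_p6_1 no7)
    (append_no (stepOKP_sound rows_ok ok_p6_2 no7)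
    (append_no (stepOKP_sound rows_ok ok_p6_3 no7)
    (append_no (stepOKP_sound rows_ok ok_p6_4 no7)
    (append_no (stepOKP_sound rows_ok ok_p6_5 no7)
    (append_no (stepOKP_sound rows_ok ok_p6_6 no7)
    (stepOKP_sound rows_ok ok_p6_7 no7)))))))

theorem no5 : ∀ m ∈ lay5, ¬ TriPart cap (szs (sel rows m)) :=
  append_no (stepOKP_sound rows_ok ok_p5_0 no6)
    (append_no (stepOKP_sound rows_ok ok_p5_1 no6)
    (append_no (stepOKP_sound rows_ok ok_p5_2 no6)
    (append_no (stepOKP_sound rows_ok ok_p5_3 no6)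
    (append_no (stepOKP_sound rows_ok ok_p5_4 no6)
    (stepOKP_sound rows_ok ok_p5_5 no6)))))

theorem no4 : ∀ m ∈ lay4, ¬ TriPart cap (szs (sel rows m)) :=
  append_no (stepOKP_sound rows_ok ok_p4_0 no5)
    (append_no (stepOKP_sound rows_ok ok_p4_1 no5)
    (stepOKP_sound rows_ok ok_p4_2 no5))

theorem no3 : ∀ m ∈ lay3, ¬ TriPart cap (szs (sel rows m)) :=
  stepOKP_sound rows_ok ok_lay3 no4

theorem no2 : ∀ m ∈ lay2, ¬ TriPart cap (szs (sel rows m)) :=
  stepOKP_sound rows_ok ok_lay2 no3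

theorem no1 : ∀ m ∈ lay1, ¬ TriPart cap (szs (sel rows m)) :=
  stepOKP_sound rows_ok ok_lay1 no2

theorem no0 : ∀ m ∈ lay0, ¬ TriPart cap (szs (sel rows m)) :=
  stepOKP_sound rows_ok ok_lay0 no1

end Vale.Agent.Lib.P302.helper8.Alt323
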